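import Vale.Agent.P182.H716.Integ
import Vale.Agent.P182.H534.RowC0
import Vale.Agent.P182.H338.TopInt

/-!
# The glued null case does not occur
-/

namespace Vale.Agent.P182.H200

open Module Matrix Vale.Agent.P182.H533 Vale.Agent.P182.B1

/-- **The glued null case does not occur.** -/
theorem glueAll : H338.GlueAll := by
  intro J _ L _ _ _ _
  exact H716.hypGlueU_of_rowC0 L J fun V _ _ _ 𝒟 u h t t' ht hm W I n U d p hB =>
    H534.rowC0 h.ctx ht hB

end Vale.Agent.P182.H200

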